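import Vale.Agent.P216.D239.Defs

/-!
# P216-D, [D-ALG]: from the rationals to the fields in which some `N ≥ 1` is invertible
-/

open Finset Matrix

namespace Vale.Agent.P216.H55D

open Vale.Agent.P216.D239 Vale.Agent.P216.D239.FinComplex

section cob

variable {V R : Type} [Ring R]

theorem cob_nil (c : List V → R) : cob c [] = 0 := by simp [cob]

theorem cob_cons (c : List V → R) (v : V) (l : List V) :
    cob c (v :: l) = c l - cob (fun l' => c (v :: l')) l := by
  unfold cob
  rw [List.length_cons, Finset.sum_range_succ']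
  simp only [List.eraseIdx_cons_succ, List.eraseIdx_cons_zero, pow_succ, pow_zero, one_mul, mul_neg,
    mul_one, neg_mul, Finset.sum_neg_distrib]
  abel

theorem cob_sub (c c' : List V → R) (l : List V) :
    cob (fun l => c l - c' l) l = cob c l - cob c' l := by
  unfold cob
  rw [← Finset.sum_sub_distrib]
  exact Finset.sum_congr rfl fun i _ => mul_sub _ _ _

theorem cob_cob (c : List V → R) (l : List V) : cob (cob c) l = 0 := by
  induction l generalizing c with
  | nil => exact cob_nil _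
  | cons v l ih =>
    have h : (fun l' => cob c (v :: l')) = fun l' => c l' - cob (fun l'' => c (v :: l'')) l' := by
      funext l'
      exact cob_cons c v l'
    rw [cob_cons, h, cob_sub, ih]
    simp

theorem cup_cons (p : ℕ) (a b : List V → R) (v : V) (l : List V) :
    cup (p + 1) a b (v :: l) = cup p (fun l' => a (v :: l')) b l := by
  simp [cup]

theorem cob_mul_left (r : R) (c : List V → R) (l : List V) (hr : ∀ s : R, r * s = s * r) :
    cob (fun l => r * c l) l = r * cob c l := by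
  unfold cob
  rw [Finset.mul_sum]
  refine Finset.sum_congr rfl fun i _ => ?_
  rw [← mul_assoc, ← hr, mul_assoc]

end cob

section cobComm

variable {V R : Type} [CommRing R]

theorem cob_cup (p : ℕ) (a b : List V → R) (l : List V) (hl : p + 2 ≤ l.length) :
    cob (cup p a b) l = cup (p + 1) (cob a) b l + (-1) ^ p * cup p a (cob b) l := by
  induction p generalizing a l with
  | zero =>
    match l, hl with
    | v :: u :: l, _ =>
      rw [cob_cons]
      have h : (fun l' => cup 0 a b (v :: l')) = fun l' => a [v] * b (v :: l') := by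
        funext l'
        simp [cup]
      rw [h, cob_mul_left _ _ _ fun s => mul_comm _ _]
      simp only [cup, zero_add, List.take_succ_cons, List.take_zero, List.drop_zero,
        List.drop_succ_cons, pow_zero, one_mul]
      rw [cob_cons a, cob_cons _ u [], cob_nil, cob_cons b]
      ring
  | succ p ih =>
    match l, hl with
    | v :: l, hl =>
      have hl' : p + 2 ≤ l.length := by simpa using hl
      rw [cob_cons]
      have h : (fun l' => cup (p + 1) a b (v :: l')) = cup p (fun l' => a (v :: l')) b := by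
        funext l'
        exact cup_cons p a b v l'
      rw [h, ih _ l hl', cup_cons, cup_cons]
      have h2 : cup (p + 1) (fun l' => cob a (v :: l')) b l =
          cup (p + 1) a b l - cup (p + 1) (cob fun l' => a (v :: l')) b l := by
        simp only [cup]
        rw [cob_cons]
        ring
      rw [h2]
      ring

end cobComm

section spx

variable {V : Type} (T : FinComplex V)

theorem spx_erase {T : FinComplex V} {q : ℕ} {l : List V} (hl : T.Spx (q + 1) l) {i : ℕ}
    (hi : i < l.length) : T.Spx q (l.eraseIdx i) := by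
  obtain ⟨h1, s, hs, h2⟩ := hl
  refine ⟨?_, s, hs, fun v hv => h2 v (List.mem_of_mem_eraseIdx hv)⟩
  rw [List.length_eraseIdx_of_lt hi, h1]
  rfl

theorem spx_take {T : FinComplex V} {q p : ℕ} {l : List V} (hl : T.Spx q l) (hp : p ≤ q) :
    T.Spx p (l.take (p + 1)) := by
  obtain ⟨h1, s, hs, h2⟩ := hl
  refine ⟨?_, s, hs, fun v hv => h2 v (List.mem_of_mem_take hv)⟩
  rw [List.length_take, h1]
  omega

theorem spx_drop {T : FinComplex V} {q p r : ℕ} {l : List V} (hl : T.Spx q l) (hp : p + r = q) :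
    T.Spx r (l.drop p) := by
  obtain ⟨h1, s, hs, h2⟩ := hl
  refine ⟨?_, s, hs, fun v hv => h2 v (List.mem_of_mem_drop hv)⟩
  rw [List.length_drop, h1]
  omega

/-- The simplices (lists) of dimension `q`. -/
abbrev S (q : ℕ) : Type := {l : List V // T.Spx q l}

theorem cob_congr {R : Type} [Ring R] {q : ℕ} {c c' : List V → R}
    (h : ∀ l, T.Spx q l → c l = c' l) {l : List V} (hl : T.Spx (q + 1) l) :
    cob c l = cob c' l := by
  unfold cob
  refine Finset.sum_congr rfl fun i hi => ?_
  rw [h _ (spx_erase hl (Finset.mem_range.1 hi))]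

variable [Fintype V]

noncomputable instance instFintypeS (q : ℕ) : Fintype (S T q) := by
  classical
  have h : {l : List V | T.Spx q l}.Finite :=
    (List.finite_length_eq V (q + 1)).subset fun l hl => hl.1
  exact h.fintype

/-- The coboundary matrix. -/
noncomputable def Dm (q : ℕ) : Matrix (S T (q + 1)) (S T q) ℤ := by
  classical
  exact fun l m => ∑ i ∈ Finset.range (q + 2), if l.1.eraseIdx i = m.1 then (-1) ^ i else 0

theorem Dm_mulVec {R : Type} [CommRing R] (q : ℕ) (c : List V → R) (l : S T (q + 1)) :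
    ((Dm T q).map (Int.castRingHom R) *ᵥ fun m => c m.1) l = cob c l.1 := by
  classical
  have hlen : l.1.length = q + 2 := l.2.1
  unfold cob
  rw [hlen]
  simp only [Matrix.mulVec, dotProduct, Matrix.map_apply, Dm, map_sum, Finset.sum_mul]
  rw [Finset.sum_comm]
  refine Finset.sum_congr rfl fun i hi => ?_
  have hi' : i < l.1.length := by
    rw [hlen]
    exact Finset.mem_range.1 hi
  rw [Finset.sum_eq_single (⟨l.1.eraseIdx i, spx_erase l.2 hi'⟩ : S T q)]
  · simp
  · intro m _ hm
    have : l.1.eraseIdx i ≠ m.1 := fun h => hm (Subtype.ext h.symm)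
    simp [this]
  · intro h
    exact absurd (Finset.mem_univ _) h

theorem cocycle_iff {R : Type} [CommRing R] (q : ℕ) (c : List V → R) :
    T.Cocycle q c ↔ ((Dm T q).map (Int.castRingHom R) *ᵥ fun m => c m.1) = 0 := by
  constructor
  · intro h
    funext l
    rw [Dm_mulVec, Pi.zero_apply]
    exact h l.1 l.2
  · intro h l hl
    rw [← Dm_mulVec T q c ⟨l, hl⟩, h, Pi.zero_apply]

open Classical in
/-- extension by zero -/
noncomputable def ext {R : Type} [CommRing R] {q : ℕ} (u : S T q → R) (l : List V) : R :=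
  if h : T.Spx q l then u ⟨l, h⟩ else 0

omit [Fintype V] in
theorem ext_apply {R : Type} [CommRing R] {q : ℕ} (u : S T q → R) (l : S T q) :
    ext T u l.1 = u l := by
  unfold ext
  rw [dif_pos l.2]

/-- In each degree the coboundaries are the image of an integral matrix. -/
theorem exists_A (q : ℕ) : ∃ (m : Type) (_ : Fintype m) (A : Matrix (S T q) m ℤ),
    (∀ (R : Type) [CommRing R] (c : List V → R), T.Cobound q c ↔
      ∃ u : m → R, (fun l : S T q => c l.1) = A.map (Int.castRingHom R) *ᵥ u) ∧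
    ∀ (R : Type) [CommRing R] (u : m → R), (Dm T q).map (Int.castRingHom R) *ᵥ
      (A.map (Int.castRingHom R) *ᵥ u) = 0 := by
  cases q with
  | zero =>
    refine ⟨Empty, inferInstance, 0, fun R _ c => ?_, fun R _ u => ?_⟩
    · simp only [Cobound, if_true]
      constructor
      · intro h
        refine ⟨0, ?_⟩
        funext l
        simpa using h l.1 l.2
      · rintro ⟨u, hu⟩ l hl
        have := congrFun hu ⟨l, hl⟩
        simpa using this
    · have : (0 : Matrix (S T 0) Empty ℤ).map (Int.castRingHom R) = 0 := by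
        ext i j
        exact j.elim
      rw [this, Matrix.zero_mulVec, Matrix.mulVec_zero]
  | succ q =>
    refine ⟨S T q, inferInstance, Dm T q, fun R _ c => ?_, fun R _ u => ?_⟩
    · simp only [Cobound, if_neg (Nat.succ_ne_zero q)]
      constructor
      · rintro ⟨b, hb⟩
        refine ⟨fun m => b m.1, ?_⟩
        funext l
        rw [Dm_mulVec]
        exact hb l.1 l.2
      · rintro ⟨u, hu⟩
        refine ⟨ext T u, fun l hl => ?_⟩
        have h1 := congrFun hu ⟨l, hl⟩
        have h2 : u = fun m : S T q => ext T u m.1 := by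
          funext m
          rw [ext_apply]
        rw [h2, Dm_mulVec] at h1
        exact h1
    · have h2 : u = fun m : S T q => ext T u m.1 := by
        funext m
        rw [ext_apply]
      have h3 : (Dm T q).map (Int.castRingHom R) *ᵥ u = fun l : S T (q + 1) => cob (ext T u) l.1 := by
        funext l
        conv_lhs => rw [h2]
        rw [Dm_mulVec]
      rw [h3]
      funext l
      rw [Dm_mulVec, cob_cob, Pi.zero_apply]

end spx

section core

/-- generalized inverse of a linear map -/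
theorem exists_ginv {K U W : Type} [Field K] [AddCommGroup U] [Module K U] [AddCommGroup W]
    [Module K W] (f : U →ₗ[K] W) : ∃ g : W →ₗ[K] U, ∀ u, f (g (f u)) = f u := by
  obtain ⟨g0, hg0⟩ := f.rangeRestrict.exists_rightInverse_of_surjective f.range_rangeRestrict
  obtain ⟨g, hg⟩ := LinearMap.exists_extend g0
  refine ⟨g, fun u => ?_⟩
  have h1 : g (f u) = g0 (f.rangeRestrict u) := by
    rw [← hg]
    rfl
  have h2 := congrArg Subtype.val (LinearMap.congr_fun hg0 (f.rangeRestrict u))
  rw [h1]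
  simpa using h2

/-- common denominators -/
theorem exists_den {ι : Type} [Fintype ι] (f : ι → ℚ) : ∃ N : ℕ, 0 < N ∧ ∃ g : ι → ℤ,
    ∀ i, (g i : ℚ) = N * f i := by
  classical
  refine ⟨∏ i, (f i).den, Finset.prod_pos fun i _ => (f i).den_pos,
    fun i => (f i).num * ∏ j ∈ univ.erase i, ((f j).den : ℤ), fun i => ?_⟩
  rw [← Finset.mul_prod_erase univ (fun i => (f i).den) (mem_univ i)]
  push_cast
  have h : ((f i).den : ℚ) * f i = (f i).num := by
    rw [mul_comm]
    exact Rat.mul_den_eq_num (f i)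
  rw [mul_right_comm, h]

theorem map_scal {n : Type} [DecidableEq n] (R : Type) [CommRing R] (N : ℕ) :
    ((N : ℤ) • (1 : Matrix n n ℤ)).map (Int.castRingHom R) = (N : R) • (1 : Matrix n n R) := by
  ext i j
  rw [Matrix.map_apply, Matrix.smul_apply, Matrix.smul_apply, Matrix.one_apply, Matrix.one_apply]
  split_ifs <;> simp

theorem map_zer {a b : Type} (R : Type) [CommRing R] :
    (0 : Matrix a b ℤ).map (Int.castRingHom R) = 0 := by
  ext i j
  simp

variable {m n p r : Type} [Fintype m] [Fintype n] [Fintype p] [Fintype r]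

theorem ratMat (A : Matrix n m ℚ) (B : Matrix p n ℚ) (E : Matrix n r ℚ) [DecidableEq n]
    [DecidableEq m] [DecidableEq p] [DecidableEq r]
    (hBA : ∀ u, B *ᵥ (A *ᵥ u) = 0) (hBE : ∀ c, B *ᵥ (E *ᵥ c) = 0)
    (hex : ∀ z, B *ᵥ z = 0 → ∃ c u, z = E *ᵥ c + A *ᵥ u)
    (hun : ∀ c u, E *ᵥ c = A *ᵥ u → c = 0) :
    ∃ (s : Matrix m n ℚ) (t : Matrix n p ℚ) (f : Matrix r n ℚ),
      A * s + t * B + E * f = 1 ∧ f * A = 0 ∧ f * E = 1 := by
  obtain ⟨t, ht⟩ := exists_ginv B.mulVecLin
  let L : (m → ℚ) × (r → ℚ) →ₗ[ℚ] (n → ℚ) := A.mulVecLin.coprod E.mulVecLin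
  have hL : ∀ u c, L (u, c) = A *ᵥ u + E *ᵥ c := fun u c => by
    simp [L]
  obtain ⟨g, hg⟩ := exists_ginv L
  let P : (n → ℚ) →ₗ[ℚ] (n → ℚ) := LinearMap.id - t.comp B.mulVecLin
  have hP : ∀ w, P w = w - t (B *ᵥ w) := fun w => by simp [P]
  have hBP : ∀ w, B *ᵥ (P w) = 0 := fun w => by
    have h := ht w
    simp only [Matrix.mulVecLin_apply] at h
    rw [hP, Matrix.mulVec_sub, h, sub_self]
  have hPk : ∀ w, B *ᵥ w = 0 → P w = w := fun w hw => by
    rw [hP, hw, map_zero, sub_zero]
  have hLP : ∀ w, L (g (P w)) = P w := fun w => by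
    obtain ⟨c, u, h⟩ := hex _ (hBP w)
    have h' : P w = L (u, c) := by rw [h, hL, add_comm]
    rw [h', hg]
  let s : (n → ℚ) →ₗ[ℚ] (m → ℚ) := (LinearMap.fst ℚ _ _).comp (g.comp P)
  let f : (n → ℚ) →ₗ[ℚ] (r → ℚ) := (LinearMap.snd ℚ _ _).comp (g.comp P)
  have h1 : ∀ w, A *ᵥ (s w) + t (B *ᵥ w) + E *ᵥ (f w) = w := fun w => by
    have h := hLP w
    have h' : L (g (P w)) = A *ᵥ (s w) + E *ᵥ (f w) := by
      rw [← hL]
      rfl
    rw [h', hP] at h
    rw [add_right_comm, h]
    abel
  have h2 : ∀ u, f (A *ᵥ u) = 0 := fun u => by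
    have h := h1 (A *ᵥ u)
    rw [hBA, map_zero, add_zero] at h
    refine hun _ (u - s (A *ᵥ u)) ?_
    rw [Matrix.mulVec_sub, eq_sub_iff_add_eq, add_comm]
    exact h
  have h3 : ∀ c, f (E *ᵥ c) = c := fun c => by
    have h := h1 (E *ᵥ c)
    rw [hBE, map_zero, add_zero] at h
    have h' := hun (c - f (E *ᵥ c)) (s (E *ᵥ c)) (by
      rw [Matrix.mulVec_sub, sub_eq_iff_eq_add]
      exact h.symm)
    exact (sub_eq_zero.1 h').symm
  refine ⟨LinearMap.toMatrix' s, LinearMap.toMatrix' t, LinearMap.toMatrix' f, ?_, ?_, ?_⟩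
  · apply Matrix.toLin'.injective
    refine LinearMap.ext fun w => ?_
    have := h1 w
    simpa [Matrix.toLin'_mul, Matrix.add_mulVec, ← Matrix.mulVec_mulVec] using this
  · apply Matrix.toLin'.injective
    refine LinearMap.ext fun w => ?_
    have := h2 w
    simpa [← Matrix.mulVec_mulVec] using this
  · apply Matrix.toLin'.injective
    refine LinearMap.ext fun w => ?_
    have := h3 w
    simpa [← Matrix.mulVec_mulVec] using this

/-- from the rational exactness to the exactness over the fields in which `N` is invertible -/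
theorem exists_N (A : Matrix n m ℤ) (B : Matrix p n ℤ) (E : Matrix n r ℤ)
    (hBA : ∀ u, B.map (Int.castRingHom ℚ) *ᵥ (A.map (Int.castRingHom ℚ) *ᵥ u) = 0)
    (hBE : ∀ c, B.map (Int.castRingHom ℚ) *ᵥ (E.map (Int.castRingHom ℚ) *ᵥ c) = 0)
    (hex : ∀ z, B.map (Int.castRingHom ℚ) *ᵥ z = 0 →
      ∃ c u, z = E.map (Int.castRingHom ℚ) *ᵥ c + A.map (Int.castRingHom ℚ) *ᵥ u)
    (hun : ∀ c u, E.map (Int.castRingHom ℚ) *ᵥ c = A.map (Int.castRingHom ℚ) *ᵥ u → c = 0) :
    ∃ N : ℕ, 0 < N ∧ ∀ (k : Type) [Field k], (N : k) ≠ 0 →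
      (∀ z, B.map (Int.castRingHom k) *ᵥ z = 0 →
        ∃ c u, z = E.map (Int.castRingHom k) *ᵥ c + A.map (Int.castRingHom k) *ᵥ u) ∧
      ∀ c u, E.map (Int.castRingHom k) *ᵥ c = A.map (Int.castRingHom k) *ᵥ u → c = 0 := by
  classical
  obtain ⟨s, t, f, h1, h2, h3⟩ := ratMat _ _ _ hBA hBE hex hun
  obtain ⟨N, hN, g, hg⟩ := exists_den (ι := (m × n) ⊕ (n × p) ⊕ (r × n))
    (Sum.elim (fun x => s x.1 x.2) (Sum.elim (fun x => t x.1 x.2) fun x => f x.1 x.2))
  set s' : Matrix m n ℤ := fun i j => g (Sum.inl (i, j)) with hs'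
  set t' : Matrix n p ℤ := fun i j => g (Sum.inr (Sum.inl (i, j))) with ht'
  set f' : Matrix r n ℤ := fun i j => g (Sum.inr (Sum.inr (i, j))) with hf'
  have es : s'.map (Int.castRingHom ℚ) = (N : ℚ) • s := by
    ext i j
    simpa using hg (Sum.inl (i, j))
  have et : t'.map (Int.castRingHom ℚ) = (N : ℚ) • t := by
    ext i j
    simpa using hg (Sum.inr (Sum.inl (i, j)))
  have ef : f'.map (Int.castRingHom ℚ) = (N : ℚ) • f := by
    ext i j
    simpa using hg (Sum.inr (Sum.inr (i, j)))
  have inj : ∀ {a b : Type} (X Y : Matrix a b ℤ),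
      X.map (Int.castRingHom ℚ) = Y.map (Int.castRingHom ℚ) → X = Y := fun X Y h => by
    ext i j
    have := congrFun (congrFun h i) j
    simpa using this
  have k1 : A * s' + t' * B + E * f' = (N : ℤ) • (1 : Matrix n n ℤ) := by
    apply inj
    rw [Matrix.map_add _ (map_add _), Matrix.map_add _ (map_add _), Matrix.map_mul, Matrix.map_mul,
      Matrix.map_mul, es, et, ef, Matrix.mul_smul, Matrix.smul_mul, Matrix.mul_smul, ← smul_add,
      ← smul_add, h1, map_scal]
  have k2 : f' * A = 0 := by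
    apply inj
    rw [Matrix.map_mul, ef, Matrix.smul_mul, h2, smul_zero, map_zer]
  have k3 : f' * E = (N : ℤ) • (1 : Matrix r r ℤ) := by
    apply inj
    rw [Matrix.map_mul, ef, Matrix.smul_mul, h3, map_scal]
  refine ⟨N, hN, fun k _ hNk => ?_⟩
  have e1 := congrArg (fun X : Matrix n n ℤ => X.map (Int.castRingHom k)) k1
  have e2 := congrArg (fun X : Matrix r m ℤ => X.map (Int.castRingHom k)) k2
  have e3 := congrArg (fun X : Matrix r r ℤ => X.map (Int.castRingHom k)) k3
  simp only [Matrix.map_mul, Matrix.map_add _ (map_add (Int.castRingHom k))] at e1 e2 e3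
  rw [map_scal] at e1
  rw [map_zer] at e2
  rw [map_scal] at e3
  constructor
  · intro z hz
    have h := congrArg (fun X : Matrix n n k => X *ᵥ z) e1
    simp only [Matrix.add_mulVec, ← Matrix.mulVec_mulVec, hz, Matrix.mulVec_zero, add_zero,
      Matrix.smul_mulVec, Matrix.one_mulVec] at h
    refine ⟨(N : k)⁻¹ • (f'.map (Int.castRingHom k) *ᵥ z),
      (N : k)⁻¹ • (s'.map (Int.castRingHom k) *ᵥ z), ?_⟩
    rw [Matrix.mulVec_smul, Matrix.mulVec_smul, ← smul_add, add_comm, h, smul_smul,
      inv_mul_cancel₀ hNk, one_smul]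
  · intro c u hcu
    have h := congrArg (fun w : n → k => f'.map (Int.castRingHom k) *ᵥ w) hcu
    simp only [Matrix.mulVec_mulVec] at h
    rw [e3, e2, Matrix.zero_mulVec, Matrix.smul_mulVec, Matrix.one_mulVec] at h
    exact (smul_eq_zero.1 h).resolve_left hNk

end core

section cast

variable {V : Type} {R : Type} [CommRing R]

theorem cob_cast (c : List V → ℤ) (l : List V) :
    cob (fun l => (c l : R)) l = ((cob c l : ℤ) : R) := by
  simp [cob]

theorem cupPow_cast (d : ℕ) (x : List V → ℤ) (j : ℕ) (l : List V) :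
    cupPow d (fun l => (x l : R)) j l = ((cupPow d x j l : ℤ) : R) := by
  induction j generalizing l with
  | zero => simp [cupPow]
  | succ j ih => simp [cupPow, cup, ih]

end cast

section spx2

variable {V : Type} (T : FinComplex V) {R : Type} [CommRing R]

theorem cupPow_cocycle (d : ℕ) (x : List V → R) (hx : T.Cocycle d x) (j : ℕ) :
    T.Cocycle (d * j) (cupPow d x j) := by
  induction j with
  | zero =>
    intro l hl
    have h : l.length = 2 := hl.1
    unfold cob
    rw [h, Finset.sum_range_succ, Finset.sum_range_succ]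
    simp [cupPow]
  | succ j ih =>
    intro l hl
    have h : l.length = d * (j + 1) + 1 + 1 := hl.1
    have h1 : d * (j + 1) + 1 = d + (d * j + 1) := by ring
    have h2 : T.Spx (d + 1) (l.take (d + 1 + 1)) := spx_take hl (by omega)
    have h3 : T.Spx (d * j + 1) (l.drop d) := spx_drop hl h1.symm
    have h4 : cob (cup d x (cupPow d x j)) l = 0 := by
      rw [cob_cup _ _ _ _ (by rw [h]; omega)]
      simp only [cup]
      rw [hx _ h2, ih _ h3]
      simp
    exact h4

theorem cupPow_scale (d : ℕ) (x x' : List V → R) (a : R) (h : ∀ l, T.Spx d l → x' l = a * x l)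
    (j : ℕ) (l : List V) (hl : T.Spx (d * j) l) : cupPow d x' j l = a ^ j * cupPow d x j l := by
  induction j generalizing l with
  | zero => simp [cupPow]
  | succ j ih =>
    have h1 : d + d * j = d * (j + 1) := by ring
    have h2 : T.Spx d (l.take (d + 1)) := spx_take hl (by rw [← h1]; omega)
    have h3 : T.Spx (d * j) (l.drop d) := spx_drop hl h1
    simp only [cupPow, cup]
    rw [h _ h2, ih _ h3]
    ring

theorem cobound_congr {q : ℕ} {c c' : List V → R} (h : ∀ l, T.Spx q l → c l = c' l) :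
    T.Cobound q c ↔ T.Cobound q c' := by
  unfold Cobound
  split_ifs with hq
  · subst hq
    exact forall_congr' fun l => forall_congr' fun hl => by rw [h l hl]
  · exact exists_congr fun b => forall_congr' fun l => forall_congr' fun hl => by rw [h l hl]

theorem cocycle_congr {q : ℕ} {c c' : List V → R} (h : ∀ l, T.Spx q l → c l = c' l) :
    T.Cocycle q c ↔ T.Cocycle q c' :=
  forall_congr' fun l => forall_congr' fun hl => by rw [cob_congr T h hl]

end spx2

section deg

variable {V : Type} [Fintype V] (T : FinComplex V)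

theorem deg_pow (q : ℕ) (e : List V → ℤ) (he : T.Cocycle q e)
    (hQ : ∀ z : List V → ℚ, T.Cocycle q z → ∃! c : ℚ, T.Cobound q fun l => z l - c * (e l : ℚ)) :
    ∃ N : ℕ, 0 < N ∧ ∀ (k : Type) [Field k], (N : k) ≠ 0 → ∀ z : List V → k, T.Cocycle q z →
      ∃! c : k, T.Cobound q fun l => z l - c * (e l : k) := by
  obtain ⟨m, _, A, hA, hBA⟩ := exists_A T q
  let E : Matrix (S T q) Unit ℤ := fun l _ => e l.1
  have hE : ∀ (R : Type) [CommRing R] (c : Unit → R), E.map (Int.castRingHom R) *ᵥ c =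
      fun l : S T q => c () * (e l.1 : R) := fun R _ c => by
    funext l
    simp only [Matrix.mulVec, dotProduct, Finset.univ_unique, Finset.sum_singleton, E]
    rw [mul_comm]
    rfl
  have g1 : ∀ c, (Dm T q).map (Int.castRingHom ℚ) *ᵥ (E.map (Int.castRingHom ℚ) *ᵥ c) = 0 := by
    intro c
    rw [hE]
    funext l
    have h1 := Dm_mulVec T (R := ℚ) q (fun l => c () * (e l : ℚ)) l
    rw [h1, cob_mul_left _ _ _ fun s => mul_comm _ _, cob_cast, he _ l.2]
    simp
  have g2 : ∀ z, (Dm T q).map (Int.castRingHom ℚ) *ᵥ z = 0 →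
      ∃ c u, z = E.map (Int.castRingHom ℚ) *ᵥ c + A.map (Int.castRingHom ℚ) *ᵥ u := by
    intro z hz
    have h2 : z = fun m : S T q => ext T z m.1 := by
      funext m
      rw [ext_apply]
    have hz' : T.Cocycle q (ext T z) := (cocycle_iff T q _).2 (by rw [← h2]; exact hz)
    obtain ⟨c, hc, -⟩ := hQ _ hz'
    obtain ⟨u, hu⟩ := (hA ℚ _).1 hc
    refine ⟨fun _ => c, u, ?_⟩
    rw [← hu, hE]
    funext l
    simp only [Pi.add_apply]
    rw [ext_apply]
    ring
  have g3 : ∀ c u, E.map (Int.castRingHom ℚ) *ᵥ c = A.map (Int.castRingHom ℚ) *ᵥ u → c = 0 := by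
    intro c u hcu
    have h0 : T.Cocycle q (fun _ => (0 : ℚ)) := fun l _ => by simp [cob]
    obtain ⟨c0, -, hc0⟩ := hQ _ h0
    have e1 : (0 : ℚ) = c0 := hc0 0 ((hA ℚ _).2 ⟨0, by
      rw [Matrix.mulVec_zero]
      funext l
      simp⟩)
    have e2 : -c () = c0 := hc0 (-c ()) ((hA ℚ _).2 ⟨u, by
      rw [← hcu, hE]
      funext l
      ring⟩)
    funext i
    rw [← e1] at e2
    exact neg_eq_zero.1 e2
  obtain ⟨N, hN, h⟩ := exists_N A (Dm T q) E (hBA ℚ) g1 g2 g3
  refine ⟨N, hN, fun k _ hNk z hz => ?_⟩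
  obtain ⟨h1, h2⟩ := h k hNk
  obtain ⟨c, u, hcu⟩ := h1 _ ((cocycle_iff T q z).1 hz)
  refine ⟨c (), ?_, fun c' hc' => ?_⟩
  · refine (hA k _).2 ⟨u, ?_⟩
    funext l
    have := congrFun hcu l
    rw [hE] at this
    simp only [Pi.add_apply] at this
    rw [this]
    ring
  · obtain ⟨u', hu'⟩ := (hA k _).1 hc'
    have h3 := h2 (fun _ => c' - c ()) (u - u') (by
      rw [Matrix.mulVec_sub, ← hu', hE]
      funext l
      have := congrFun hcu l
      rw [hE] at this
      simp only [Pi.add_apply] at this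
      simp only [Pi.sub_apply]
      rw [this]
      ring)
    exact sub_eq_zero.1 (congrFun h3 ())

theorem deg_zero (q : ℕ) (hQ : ∀ z : List V → ℚ, T.Cocycle q z → T.Cobound q z) :
    ∃ N : ℕ, 0 < N ∧ ∀ (k : Type) [Field k], (N : k) ≠ 0 → ∀ z : List V → k, T.Cocycle q z →
      T.Cobound q z := by
  obtain ⟨m, _, A, hA, hBA⟩ := exists_A T q
  let E : Matrix (S T q) Empty ℤ := fun _ i => i.elim
  have hE : ∀ (R : Type) [CommRing R] (c : Empty → R), E.map (Int.castRingHom R) *ᵥ c = 0 :=
      fun R _ c => by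
    funext l
    simp [Matrix.mulVec, dotProduct]
  have g1 : ∀ c, (Dm T q).map (Int.castRingHom ℚ) *ᵥ (E.map (Int.castRingHom ℚ) *ᵥ c) = 0 := by
    intro c
    rw [hE, Matrix.mulVec_zero]
  have g2 : ∀ z, (Dm T q).map (Int.castRingHom ℚ) *ᵥ z = 0 →
      ∃ c u, z = E.map (Int.castRingHom ℚ) *ᵥ c + A.map (Int.castRingHom ℚ) *ᵥ u := by
    intro z hz
    have h2 : z = fun m : S T q => ext T z m.1 := by
      funext m
      rw [ext_apply]
    have hz' : T.Cocycle q (ext T z) := (cocycle_iff T q _).2 (by rw [← h2]; exact hz)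
    obtain ⟨u, hu⟩ := (hA ℚ _).1 (hQ _ hz')
    refine ⟨0, u, ?_⟩
    rw [← hu, hE, zero_add]
    exact h2
  have g3 : ∀ c u, E.map (Int.castRingHom ℚ) *ᵥ c = A.map (Int.castRingHom ℚ) *ᵥ u → c = 0 := by
    intro c u hcu
    funext i
    exact i.elim
  obtain ⟨N, hN, h⟩ := exists_N A (Dm T q) E (hBA ℚ) g1 g2 g3
  refine ⟨N, hN, fun k _ hNk z hz => ?_⟩
  obtain ⟨h1, -⟩ := h k hNk
  obtain ⟨c, u, hcu⟩ := h1 _ ((cocycle_iff T q z).1 hz)
  refine (hA k _).2 ⟨u, ?_⟩
  rw [hE, zero_add] at hcu
  exact hcu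

end deg

/-- **[D-ALG]** -/
theorem goalALG : GoalALG := by
  intro V _ T d h D hd hD hT
  classical
  obtain ⟨x, hx, hpow, hoth⟩ := hT
  -- an integral generator
  obtain ⟨a, ha, g, hg⟩ := exists_den (fun l : S T d => x l.1)
  have ha' : (a : ℚ) ≠ 0 := by exact_mod_cast ha.ne'
  let y : List V → ℤ := ext T g
  have hy : ∀ l, T.Spx d l → ((y l : ℤ) : ℚ) = a * x l := fun l hl => by
    have h1 : y l = g ⟨l, hl⟩ := ext_apply T g ⟨l, hl⟩
    rw [h1]
    exact hg ⟨l, hl⟩
  have hyc : T.Cocycle d y := fun l hl => by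
    have h1 : ((cob y l : ℤ) : ℚ) = 0 := by
      rw [← cob_cast, cob_congr T hy hl, cob_mul_left _ _ _ fun s => mul_comm _ _, hx l hl,
        mul_zero]
    exact_mod_cast h1
  have hpow' : ∀ j ≤ h, ∀ z : List V → ℚ, T.Cocycle (d * j) z →
      ∃! c : ℚ, T.Cobound (d * j) fun l => z l - c * ((cupPow d y j l : ℤ) : ℚ) := by
    intro j hj z hz
    have haj : (a : ℚ) ^ j ≠ 0 := pow_ne_zero _ ha'
    have key : ∀ c : ℚ, (T.Cobound (d * j) fun l => z l - c * ((cupPow d y j l : ℤ) : ℚ)) ↔
        T.Cobound (d * j) fun l => z l - (c * a ^ j) * cupPow d x j l := fun c => by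
      refine cobound_congr T fun l hl => ?_
      rw [← cupPow_cast, cupPow_scale T d x (fun l => (y l : ℚ)) a hy j l hl]
      ring
    obtain ⟨c, hc, hu⟩ := hpow j hj z hz
    refine ⟨c / a ^ j, ?_, fun c' hc' => ?_⟩
    · refine (key _).2 ?_
      rw [div_mul_cancel₀ _ haj]
      exact hc
    · have h1 := hu _ ((key c').1 hc')
      rw [← h1, mul_div_cancel_right₀ _ haj]
  -- one integer for each degree
  have hdeg : ∀ q : ℕ, ∃ N : ℕ, 0 < N ∧ ∀ (k : Type) [Field k], (N : k) ≠ 0 →
      (∀ j ≤ h, q = d * j → ∀ z : List V → k, T.Cocycle q z →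
        ∃! c : k, T.Cobound q fun l => z l - c * ((cupPow d y j l : ℤ) : k)) ∧
      ((∀ j ≤ h, q ≠ d * j) → ∀ z : List V → k, T.Cocycle q z → T.Cobound q z) := by
    intro q
    by_cases hq : ∃ j ≤ h, q = d * j
    · obtain ⟨j, hj, rfl⟩ := hq
      obtain ⟨N, hN, hk⟩ := deg_pow T (d * j) (cupPow d y j) (cupPow_cocycle T d y hyc j)
        (hpow' j hj)
      refine ⟨N, hN, fun k _ hNk => ⟨fun j' _ hjj => ?_, fun h' => absurd rfl (h' j hj)⟩⟩
      have : j = j' := Nat.eq_of_mul_eq_mul_left hd hjj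
      subst this
      exact hk k hNk
    · push Not at hq
      obtain ⟨N, hN, hk⟩ := deg_zero T q (hoth q hq)
      exact ⟨N, hN, fun k _ hNk => ⟨fun j hj hjj => absurd hjj (hq j hj), fun _ => hk k hNk⟩⟩
  choose N hN hk using hdeg
  refine ⟨∏ q ∈ Finset.range (D + 1), N q, Finset.prod_pos fun q _ => hN q, fun k _ hNk => ?_⟩
  have hNq : ∀ q ≤ D, (N q : k) ≠ 0 := fun q hq h0 => hNk (by
    rw [Nat.cast_prod]
    exact Finset.prod_eq_zero (Finset.mem_range.2 (Nat.lt_succ_of_le hq)) h0)
  refine ⟨fun l => (y l : k), fun l hl => ?_, fun j hj z hz => ?_, fun q hq hqj z hz => ?_⟩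
  · rw [cob_cast, hyc l hl, Int.cast_zero]
  · have h1 := (hk (d * j) k (hNq _ (le_trans (Nat.mul_le_mul_left d hj) hD))).1 j hj rfl z hz
    simpa only [cupPow_cast] using h1
  · exact (hk q k (hNq q hq)).2 hqj z hz

end Vale.Agent.P216.H55D
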